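import Vale.Agent.P225.Count.Sums

/-!
# P225: the counting certificate

`k = 10 ^ 12`.  Sixteen tiers: for `10 ^ 6 R` the upper end and `z / 100` the cut, take in the
level `l` the bidegrees with `|a - b| > z l / 100`.
-/

namespace Vale.Agent.P225.Count

open Finset

noncomputable section

theorem prim_thirteen (x : ℝ) : prim 13 x =
      x - 13 / 3 * x ^ 3 + 78 / 5 * x ^ 5 - 286 / 7 * x ^ 7 + 715 / 9 * x ^ 9
      - 117 * x ^ 11 + 132 * x ^ 13 - 572 / 5 * x ^ 15 + 1287 / 17 * x ^ 17 - 715 / 19 * x ^ 19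
      + 286 / 21 * x ^ 21 - 78 / 23 * x ^ 23 + 13 / 25 * x ^ 25 - 1 / 27 * x ^ 27 := by
  simp only [prim, Finset.sum_range_succ, Finset.sum_range_zero,
    Nat.choose_eq_descFactorial_div_factorial]
  norm_num [Nat.descFactorial, Nat.factorial]
  try ring

theorem prim_fourteen (x : ℝ) : prim 14 x =
      x - 14 / 3 * x ^ 3 + 91 / 5 * x ^ 5 - 52 * x ^ 7 + 1001 / 9 * x ^ 9
      - 182 * x ^ 11 + 231 * x ^ 13 - 1144 / 5 * x ^ 15 + 3003 / 17 * x ^ 17 - 2002 / 19 * x ^ 19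
      + 143 / 3 * x ^ 21 - 364 / 23 * x ^ 23 + 91 / 25 * x ^ 25 - 14 / 27 * x ^ 27 + 1 / 29 * x ^ 29 := by
  simp only [prim, Finset.sum_range_succ, Finset.sum_range_zero,
    Nat.choose_eq_descFactorial_div_factorial]
  norm_num [Nat.descFactorial, Nat.factorial]
  try ring

/-- The slack for the finiteness of the levels. -/
def slack : ℝ := 1 / 10 ^ 8

/-- Lower end of the cut. -/
def zLo (zn : ℕ) : ℝ := (zn : ℝ) / 100 * (1 - slack)

/-- Upper end of the cut. -/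
def zHi (zn : ℕ) : ℝ := (zn : ℝ) / 100 + slack

/-- Second moment, from below. -/
def momLo (zn : ℕ) : ℝ := area 13 (zHi zn) - area 14 (zLo zn) - slack

/-- Mass, from above. -/
def massHi (zn : ℕ) : ℝ := 1000001 / 1000000 * ((1 + slack) * area 13 (zLo zn) + slack)

/-- The bound on the levels: the growth exponent. -/
def bound : ℝ := r2Inf * ((10 : ℝ) ^ 12 * 10 ^ 12 + 28 * 10 ^ 12)

/-- The condition on a tier with levels up to `hi`. -/
def Cond (zn hi : ℕ) : Prop :=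
  zn ≤ 99 ∧ 0 < area 13 (zHi zn) ∧ 0 ≤ momLo zn ∧ momLo zn ≤ 51 * massHi zn ∧
    ((hi : ℝ) ^ 2 + 28 * hi) * massHi zn - momLo zn * (hi : ℝ) ^ 2 / 51 < bound * massHi zn

/-- The cut of a level. -/
def cut (zn l : ℕ) : ℕ := l * zn / 100 + 1

theorem level {zn hi l : ℕ} (h : Cond zn hi) (hlo : 10 ^ 10 ≤ l) (hhi : l ≤ hi) :
    (∑ a ∈ pre l (cut zn l), (biDim p₀ a (l - a) : ℝ) * dwellPot l (Nat.dist (2 * a) l) <
      (∑ a ∈ pre l (cut zn l), (biDim p₀ a (l - a) : ℝ)) *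
        (((10 : ℝ) ^ 12) ^ 2 + 2 * p₀ * (10 : ℝ) ^ 12)) ∧
    (l : ℝ) ^ 28 * area 13 (zHi zn) / (14 * 2 ^ 26 * (Nat.factorial 13 : ℝ) ^ 2) ≤
      ∑ a ∈ pre l (cut zn l), (biDim p₀ a (l - a) : ℝ) := by
  obtain ⟨hz, hA, hnum, hnum', hc⟩ := h
  set Z := cut zn l with hZdef
  have hl : 0 < l := by omega
  have hZ1 : 1 ≤ Z := by rw [hZdef, cut]; omega
  have hzl : l * zn ≤ l * 99 := Nat.mul_le_mul le_rfl hz
  have hZl : Z ≤ l := by rw [hZdef, cut]; omega
  have hZlo : l * zn ≤ 100 * Z := by rw [hZdef, cut]; omega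
  have hZhi : 100 * Z ≤ l * zn + 100 := by rw [hZdef, cut]; omega
  have hlo' : (10 : ℝ) ^ 10 ≤ l := by exact_mod_cast hlo
  have hl' : (0 : ℝ) < l := by exact_mod_cast hl
  have hz' : (zn : ℝ) ≤ 99 := by exact_mod_cast hz
  have hz0 : (0 : ℝ) ≤ zn := Nat.cast_nonneg _
  have hZlo' : (l : ℝ) * zn ≤ 100 * Z := by exact_mod_cast hZlo
  have hZhi' : 100 * (Z : ℝ) ≤ l * zn + 100 := by exact_mod_cast hZhi
  have hhi' : (Z : ℝ) + 1 ≤ zHi zn * l := by rw [zHi, slack]; linarith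
  have hhi1 : zHi zn ≤ 1 := by rw [zHi, slack]; linarith
  have hlo0 : 0 ≤ zLo zn := mul_nonneg (by positivity) (by rw [slack]; norm_num)
  have hlo1 : zLo zn ≤ 1 := by rw [zLo, slack]; linarith
  have hlo2 : zLo zn * ((l : ℝ) + 26) ≤ Z := by
    have h1 : (1 - slack) * ((l : ℝ) + 26) ≤ l := by rw [slack]; linarith
    have h2 := mul_le_mul_of_nonneg_left h1 (show (0 : ℝ) ≤ zn / 100 by positivity)
    rw [← mul_assoc] at h2
    exact h2.trans (by linarith)
  have hA3 : 0 ≤ area 13 (zLo zn) := area_nonneg 13 hlo0 hlo1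
  have hden : 0 < massHi zn := by
    have : (0 : ℝ) < slack := by rw [slack]; norm_num
    unfold massHi
    positivity
  have hfl : ∀ a, a ≤ l → cf (l - a) * cf (l - (l - a)) = cf a * cf (l - a) := fun a ha => by
    rw [Nat.sub_sub_self ha, mul_comm]
  have hdist : ∀ a, a ≤ l → Nat.dist (2 * (l - a)) l = Nat.dist (2 * a) l := fun a ha => by
    unfold Nat.dist; omega
  set U := Icc ((l + Z + 1) / 2) l
  set S0 := ∑ a ∈ U, cf a * cf (l - a) with hS0
  set S2 := ∑ a ∈ U, cf a * cf (l - a) * (Nat.dist (2 * a) l : ℝ) ^ 2 with hS2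
  have hsc : 0 < scale l := by rw [scale]; positivity
  have hm1 := mass_ge hl hZ1 hZl hhi' hhi1
  have hm2 : S0 ≤ scale l * ((l : ℝ) / 2) * massHi zn := by
    refine (mass_le hl hZ1 hZl hlo2 hlo0).trans ?_
    rw [mul_assoc, mul_assoc]
    refine mul_le_mul_of_nonneg_left ?_ hsc.le
    have h1 : (1 + 26 / (l : ℝ)) ^ 26 ≤ 1000001 / 1000000 :=
      le_trans (pow_le_pow_left₀ (by positivity)
        (show (1 : ℝ) + 26 / l ≤ 1 + slack from add_le_add le_rfl
          ((div_le_iff₀ hl').2 (by rw [slack]; linarith))) 26) (by rw [slack]; norm_num)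
    have h2 : 1 + ((l : ℝ) + 26) / 2 * area 13 (zLo zn) ≤
        (l : ℝ) / 2 * ((1 + slack) * area 13 (zLo zn) + slack) := by
      have e : ((l : ℝ) + 26) / 2 * area 13 (zLo zn) ≤
          (l : ℝ) / 2 * (1 + slack) * area 13 (zLo zn) :=
        mul_le_mul_of_nonneg_right (by rw [slack]; linarith) hA3
      have : (1 : ℝ) ≤ (l : ℝ) / 2 * slack := by rw [slack]; linarith
      linarith
    refine (mul_le_mul h1 h2 (by positivity) (by norm_num)).trans (le_of_eq ?_)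
    unfold massHi
    ring
  have hm3 : (l : ℝ) ^ 2 * scale l * ((l : ℝ) / 2) * momLo zn ≤ S2 := by
    refine le_trans ?_ (moment_ge hl hZ1 hZl hhi' hhi1 hlo2 hlo0)
    rw [mul_assoc]
    refine mul_le_mul_of_nonneg_left ?_ (by positivity)
    have : (1 : ℝ) ≤ (l : ℝ) / 2 * slack := by rw [slack]; linarith
    unfold momLo
    linarith
  have hS0pos : 0 < S0 := lt_of_lt_of_le (by positivity) hm1
  have hbi : ∀ a ≤ l, (biDim p₀ a (l - a) : ℝ) = ((l : ℝ) + 14) / 14 * (cf a * cf (l - a)) := by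
    intro a ha
    have h1 := biDim_eq a (l - a)
    rw [show (a : ℝ) + ((l - a : ℕ) : ℝ) = l by rw [Nat.cast_sub ha]; ring] at h1
    linear_combination h1 / 14
  have hsum0 : ∑ a ∈ pre l Z, (biDim p₀ a (l - a) : ℝ) = ((l : ℝ) + 14) / 14 * (2 * S0) := by
    rw [← sum_pre hZ1 (fun a => cf a * cf (l - a)) hfl, Finset.mul_sum]
    exact Finset.sum_congr rfl fun a ha => hbi a (by
      simp only [pre, mem_filter, mem_range] at ha; omega)
  have hsum1 : ∑ a ∈ pre l Z, (biDim p₀ a (l - a) : ℝ) * dwellPot l (Nat.dist (2 * a) l) =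
      ((l : ℝ) + 14) / 14 * (2 * ((lam l * S0 - S2 / 51) / r2Inf)) := by
    have e : ∑ a ∈ U, cf a * cf (l - a) * dwellPot l (Nat.dist (2 * a) l) =
        (lam l * S0 - S2 / 51) / r2Inf := by
      rw [hS0, hS2, Finset.mul_sum, Finset.sum_div, ← Finset.sum_sub_distrib, Finset.sum_div]
      refine Finset.sum_congr rfl fun a _ => ?_
      rw [dwellPot]
      ring
    rw [← e, ← sum_pre hZ1 (fun a => cf a * cf (l - a) * dwellPot l (Nat.dist (2 * a) l))
      (fun a ha => by rw [hfl a ha, hdist a ha]), Finset.mul_sum]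
    refine Finset.sum_congr rfl fun a ha => ?_
    rw [hbi a (by simp only [pre, mem_filter, mem_range] at ha; omega)]
    ring
  constructor
  · rw [hsum0, hsum1, mul_assoc]
    refine mul_lt_mul_of_pos_left ?_ (by positivity)
    rw [mul_assoc]
    refine mul_lt_mul_of_pos_left ?_ two_pos
    have hr2 : 0 < r2Inf := by norm_num [r2Inf]
    rw [div_lt_iff₀ hr2]
    have hkey : (l : ℝ) ^ 2 * momLo zn * S0 ≤ S2 * massHi zn :=
      calc (l : ℝ) ^ 2 * momLo zn * S0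
          ≤ (l : ℝ) ^ 2 * momLo zn * (scale l * ((l : ℝ) / 2) * massHi zn) :=
            mul_le_mul_of_nonneg_left hm2 (by positivity)
        _ = (l : ℝ) ^ 2 * scale l * ((l : ℝ) / 2) * momLo zn * massHi zn := by ring
        _ ≤ S2 * massHi zn := mul_le_mul_of_nonneg_right hm3 hden.le
    have hhl : (l : ℝ) ≤ hi := by exact_mod_cast hhi
    have hmono : ((l : ℝ) ^ 2 + 28 * l) * massHi zn - momLo zn * (l : ℝ) ^ 2 / 51 ≤
        ((hi : ℝ) ^ 2 + 28 * hi) * massHi zn - momLo zn * (hi : ℝ) ^ 2 / 51 := by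
      have hsq : (0 : ℝ) ≤ (hi : ℝ) ^ 2 - (l : ℝ) ^ 2 := by
        have := pow_le_pow_left₀ hl'.le hhl 2
        linarith
      nlinarith [mul_nonneg hsq (show (0 : ℝ) ≤ 51 * massHi zn - momLo zn by linarith),
        mul_nonneg (show (0 : ℝ) ≤ (hi : ℝ) - l by linarith) hden.le]
    refine lt_of_mul_lt_mul_right ?_ hden.le
    have hlam : lam l = (l : ℝ) ^ 2 + 28 * l := by simp only [lam, p₀]; push_cast; ring
    calc (lam l * S0 - S2 / 51) * massHi zn
        ≤ S0 * (((l : ℝ) ^ 2 + 28 * l) * massHi zn - momLo zn * (l : ℝ) ^ 2 / 51) := by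
          rw [hlam]; linarith
      _ < S0 * (bound * massHi zn) := mul_lt_mul_of_pos_left (lt_of_le_of_lt hmono hc) hS0pos
      _ = _ := by simp only [bound, p₀]; push_cast; ring
  · rw [hsum0]
    calc (l : ℝ) ^ 28 * area 13 (zHi zn) / (14 * 2 ^ 26 * (Nat.factorial 13 : ℝ) ^ 2)
        = (l : ℝ) / 14 * (2 * (scale l * ((l : ℝ) / 2 * area 13 (zHi zn)))) := by
          rw [scale, div_pow]; ring
      _ ≤ _ := by gcongr; linarith

/-- The cut of each level: the first tier reaching it. -/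
def tierCut : List (ℕ × ℕ) → ℕ → ℕ
  | [], _ => 0
  | (zn, R) :: rest, l => if l ≤ R * 10 ^ 6 then cut zn l else tierCut rest l

/-- The tiers are increasing and satisfy their conditions. -/
def Ok : ℕ → List (ℕ × ℕ) → Prop
  | _, [] => True
  | lo, (zn, R) :: rest => lo ≤ R * 10 ^ 6 ∧ Cond zn (R * 10 ^ 6) ∧ Ok (R * 10 ^ 6) rest

/-- The upper end of the last tier. -/
def top : ℕ → List (ℕ × ℕ) → ℕ
  | lo, [] => lo
  | _, (_, R) :: rest => top (R * 10 ^ 6) rest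

/-- The count, up to a constant. -/
def total : ℕ → List (ℕ × ℕ) → ℝ
  | _, [] => 0
  | lo, (zn, R) :: rest =>
    (((R * 10 ^ 6 : ℕ) : ℝ) ^ 29 - (lo : ℝ) ^ 29) * area 13 (zHi zn) + total (R * 10 ^ 6) rest

theorem le_top : ∀ (L : List (ℕ × ℕ)) (lo : ℕ), Ok lo L → lo ≤ top lo L
  | [], _, _ => le_rfl
  | (_, _) :: rest, _, h => h.1.trans (le_top rest _ h.2.2)

theorem succ_pow_le (x : ℝ) (hx : 0 ≤ x) (n : ℕ) :
    (x + 1) ^ (n + 1) ≤ x ^ (n + 1) + (n + 1) * (x + 1) ^ n := by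
  induction n with
  | zero => simp
  | succ n ih =>
    have h1 : x ^ (n + 1) ≤ (x + 1) ^ (n + 1) := pow_le_pow_left₀ hx (by linarith) _
    have h2 := mul_le_mul_of_nonneg_right ih (by linarith : (0 : ℝ) ≤ x + 1)
    push_cast
    simp only [pow_succ] at h1 h2 ⊢
    linarith

theorem sum_pow_ge {lo hi : ℕ} (h : lo ≤ hi) :
    ((hi : ℝ) ^ 29 - (lo : ℝ) ^ 29) / 29 ≤ ∑ l ∈ Ioc lo hi, (l : ℝ) ^ 28 := by
  induction hi, h using Nat.le_induction with
  | base => simp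
  | succ hi hle ih =>
    rw [Finset.sum_Ioc_succ_top hle]
    have := succ_pow_le (hi : ℝ) (Nat.cast_nonneg _) 28
    push_cast at this ⊢
    linarith

theorem tiers_bound : ∀ (L : List (ℕ × ℕ)) (lo : ℕ), 10 ^ 10 ≤ lo → Ok lo L →
    (∀ l ∈ Ioc lo (top lo L),
      ∑ a ∈ pre l (tierCut L l), (biDim p₀ a (l - a) : ℝ) * dwellPot l (Nat.dist (2 * a) l) <
        (∑ a ∈ pre l (tierCut L l), (biDim p₀ a (l - a) : ℝ)) *
          (((10 : ℝ) ^ 12) ^ 2 + 2 * p₀ * (10 : ℝ) ^ 12)) ∧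
    total lo L / (29 * (14 * 2 ^ 26 * (Nat.factorial 13 : ℝ) ^ 2)) ≤
      ∑ l ∈ Ioc lo (top lo L), ∑ a ∈ pre l (tierCut L l), (biDim p₀ a (l - a) : ℝ) := by
  intro L
  induction L with
  | nil =>
    intro lo _ _
    refine ⟨fun l hl => ?_, ?_⟩
    · rw [top, Finset.Ioc_self] at hl
      exact absurd hl (Finset.notMem_empty l)
    · rw [top, total, zero_div, Finset.Ioc_self, Finset.sum_empty]
  | cons t rest ih =>
    obtain ⟨zn, R⟩ := t
    rintro lo hlo ⟨hle, hC, hok⟩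
    obtain ⟨ih1, ih2⟩ := ih (R * 10 ^ 6) (hlo.trans hle) hok
    have htop : top lo ((zn, R) :: rest) = top (R * 10 ^ 6) rest := rfl
    have hfirst : ∀ l ∈ Ioc lo (R * 10 ^ 6), tierCut ((zn, R) :: rest) l = cut zn l := fun l hl => by
      rw [tierCut, if_pos (Finset.mem_Ioc.1 hl).2]
    have hrest : ∀ l ∈ Ioc (R * 10 ^ 6) (top (R * 10 ^ 6) rest),
        tierCut ((zn, R) :: rest) l = tierCut rest l := fun l hl => by
      rw [tierCut, if_neg (Nat.not_le.2 (Finset.mem_Ioc.1 hl).1)]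
    rw [htop]
    refine ⟨fun l hl => ?_, ?_⟩
    · rcases le_or_gt l (R * 10 ^ 6) with h | h
      · have hl' := Finset.mem_Ioc.2 ⟨(Finset.mem_Ioc.1 hl).1, h⟩
        rw [hfirst l hl']
        exact (level hC (hlo.trans (Finset.mem_Ioc.1 hl).1.le) h).1
      · have hl' := Finset.mem_Ioc.2 ⟨h, (Finset.mem_Ioc.1 hl).2⟩
        rw [hrest l hl']
        exact ih1 l hl'
    · rw [← Finset.sum_Ioc_consecutive _ hle (le_top rest _ hok), total, add_div]
      refine add_le_add ?_ (ih2.trans_eq (Finset.sum_congr rfl fun l hl => by rw [hrest l hl]))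
      calc (((R * 10 ^ 6 : ℕ) : ℝ) ^ 29 - (lo : ℝ) ^ 29) * area 13 (zHi zn) /
            (29 * (14 * 2 ^ 26 * (Nat.factorial 13 : ℝ) ^ 2))
          = (((R * 10 ^ 6 : ℕ) : ℝ) ^ 29 - (lo : ℝ) ^ 29) / 29 *
            (area 13 (zHi zn) / (14 * 2 ^ 26 * (Nat.factorial 13 : ℝ) ^ 2)) := by
              field_simp
        _ ≤ (∑ l ∈ Ioc lo (R * 10 ^ 6), (l : ℝ) ^ 28) *
            (area 13 (zHi zn) / (14 * 2 ^ 26 * (Nat.factorial 13 : ℝ) ^ 2)) :=
              mul_le_mul_of_nonneg_right (sum_pow_ge hle) (div_nonneg hC.2.1.le (by positivity))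
        _ ≤ _ := by
              rw [Finset.sum_mul]
              refine Finset.sum_le_sum fun l hl => ?_
              rw [hfirst l hl, ← mul_div_assoc]
              exact (level hC (hlo.trans (Finset.mem_Ioc.1 hl).1.le) (Finset.mem_Ioc.1 hl).2).2

/-- The sixteen tiers. -/
def tiers : List (ℕ × ℕ) :=
  [(0, 999622), (3, 999670), (6, 999729), (9, 999801), (12, 999885), (14, 999948),
    (16, 1000017), (18, 1000093), (20, 1000175), (23, 1000309), (26, 1000459), (29, 1000623),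
    (32, 1000802), (36, 1001065), (40, 1001355), (46, 1001843)]

theorem tiers_ok : Ok (10 ^ 10) tiers := by
  refine ⟨?_, ?_, ?_, ?_, ?_, ?_, ?_, ?_, ?_, ?_, ?_, ?_, ?_, ?_, ?_, ?_, ?_, ?_, ?_, ?_, ?_, ?_,
    ?_, ?_, ?_, ?_, ?_, ?_, ?_, ?_, ?_, ?_, trivial⟩
  all_goals first
    | omega
    | (simp only [Cond, momLo, massHi, area, bound, r2Inf, zLo, zHi, slack, prim_thirteen,
        prim_fourteen]
       norm_num)

theorem tiers_total :
    (2 * ((10 : ℝ) ^ 12 + 29) ^ 29 / (Nat.factorial 29 : ℝ) + 1) *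
        (29 * (14 * 2 ^ 26 * (Nat.factorial 13 : ℝ) ^ 2)) ≤ total (10 ^ 10) tiers := by
  simp only [tiers, total, area, zHi, slack, prim_thirteen]
  norm_num [Nat.factorial]

theorem flatCount_le :
    ((flatCount (amb p₀) (10 ^ 12) : ℕ) : ℝ) ≤
      2 * ((10 : ℝ) ^ 12 + 29) ^ 29 / (Nat.factorial 29 : ℝ) := by
  have key : ∀ k : ℕ, 1 ≤ k → ((flatCount (amb p₀) k : ℕ) : ℝ) ≤
      2 * ((k : ℝ) + 29) ^ 29 / (Nat.factorial 29 : ℝ) := by
    intro k hk
    obtain ⟨j, rfl⟩ := Nat.exists_eq_add_of_le hk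
    have h : flatCount (amb p₀) (1 + j) = (1 + j + 29).choose 29 + (j + 29).choose 29 := by
      show (30 + (1 + j) - 1).choose (1 + j) + (30 + (1 + j) - 2).choose (1 + j - 1) = _
      rw [show 30 + (1 + j) - 1 = 1 + j + 29 by omega, show 30 + (1 + j) - 2 = j + 29 by omega,
        show 1 + j - 1 = j by omega, Nat.choose_symm_add, Nat.choose_symm_add]
    have h1 := Nat.choose_le_pow_div (α := ℝ) 29 (1 + j + 29)
    have h2 : ((j + 29).choose 29 : ℝ) ≤ ((1 + j + 29).choose 29 : ℝ) := by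
      exact_mod_cast Nat.choose_le_choose 29 (by omega : j + 29 ≤ 1 + j + 29)
    rw [h]
    push_cast at h1 h2 ⊢
    rw [mul_div_assoc]
    linarith
  have := key (10 ^ 12) (Nat.one_le_pow _ _ (by omega))
  rw [Nat.cast_pow, Nat.cast_ofNat] at this
  exact this

/-- The certificate. -/
theorem count_ok : CountStmt := by
  obtain ⟨hmean, hcount⟩ := tiers_bound tiers (10 ^ 10) le_rfl tiers_ok
  refine ⟨10 ^ 12, Nat.one_le_pow _ _ (Nat.succ_pos _), Ioc (10 ^ 10) (top (10 ^ 10) tiers),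
    tierCut tiers, fun l hl => ⟨?_, ?_⟩, ?_⟩
  · exact le_trans (by norm_num) (Finset.mem_Ioc.1 hl).1
  · have := hmean l hl
    rw [Nat.cast_pow, Nat.cast_ofNat]
    exact this
  · have h1 := flatCount_le
    have h2 := (le_div_iff₀ (by positivity)).2 tiers_total
    have h3 : ((flatCount (amb p₀) (10 ^ 12) : ℕ) : ℝ) + 1 ≤
        ∑ l ∈ Ioc (10 ^ 10) (top (10 ^ 10) tiers),
          ∑ a ∈ pre l (tierCut tiers l), (biDim p₀ a (l - a) : ℝ) :=
      (add_le_add h1 le_rfl).trans (h2.trans hcount)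
    refine (Nat.cast_le (α := ℝ)).1 ?_
    rw [Nat.cast_add, Nat.cast_one, Nat.cast_sum]
    simp only [Nat.cast_sum]
    exact h3

end

end Vale.Agent.P225.Count
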