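import Vale.Agent.P225.Interfaces

/-!
# P225: sums over the bidegrees of one level

The weight of the bidegree `(a, l - a)` is `c a * c (l - a)` up to a factor of the level, with
`c a = (a + 13).choose 13`; it is squeezed between multiples of `(1 - x ^ 2) ^ 13`.  As this is
antitone in `|x|`, sums compare with integrals, and `x ^ 2 w = w - (1 - x ^ 2) w`.
-/

namespace Vale.Agent.P225.Count

open Finset

noncomputable section

/-- The weight. -/
def wgt (n : ℕ) (x : ℝ) : ℝ := (1 - x ^ 2) ^ n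

/-- Its primitive. -/
def prim (n : ℕ) (x : ℝ) : ℝ :=
  ∑ i ∈ range (n + 1), (-1) ^ i * (n.choose i : ℝ) / (2 * i + 1) * x ^ (2 * i + 1)

/-- Its integral up to one. -/
def area (n : ℕ) (x : ℝ) : ℝ := prim n 1 - prim n x

theorem hasDerivAt_prim (n : ℕ) (x : ℝ) : HasDerivAt (prim n) (wgt n x) x := by
  have h : HasDerivAt (fun y => ∑ i ∈ range (n + 1),
      (-1) ^ i * (n.choose i : ℝ) / (2 * i + 1) * y ^ (2 * i + 1))
      (∑ i ∈ range (n + 1), (-1) ^ i * (n.choose i : ℝ) / (2 * i + 1) *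
        (((2 * i + 1 : ℕ) : ℝ) * x ^ (2 * i + 1 - 1))) x :=
    HasDerivAt.fun_sum fun i _ => (hasDerivAt_pow _ x).const_mul _
  show HasDerivAt (fun y => ∑ i ∈ range (n + 1),
    (-1) ^ i * (n.choose i : ℝ) / (2 * i + 1) * y ^ (2 * i + 1)) (wgt n x) x
  refine h.congr_deriv ?_
  symm
  rw [wgt, show (1 : ℝ) - x ^ 2 = -x ^ 2 + 1 by ring, add_pow]
  refine Finset.sum_congr rfl fun i _ => ?_
  have : (2 * (i : ℝ) + 1) ≠ 0 := by positivity
  rw [one_pow, mul_one, Nat.add_sub_cancel, neg_pow, pow_mul]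
  push_cast
  field_simp

theorem wgt_nonneg (n : ℕ) {x : ℝ} (h0 : 0 ≤ x) (h1 : x ≤ 1) : 0 ≤ wgt n x :=
  pow_nonneg (by nlinarith) n

theorem wgt_le_one (n : ℕ) {x : ℝ} (h0 : 0 ≤ x) (h1 : x ≤ 1) : wgt n x ≤ 1 :=
  pow_le_one₀ (by nlinarith) (by nlinarith)

theorem prim_mono (n : ℕ) {x y : ℝ} (h0 : 0 ≤ x) (hxy : x ≤ y) (h1 : y ≤ 1) :
    prim n x ≤ prim n y := by
  have hd : ∀ z ∈ Set.Icc (0 : ℝ) 1, HasDerivWithinAt (prim n) (wgt n z) (Set.Icc (0 : ℝ) 1) z :=
    fun z _ => (hasDerivAt_prim n z).hasDerivWithinAt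
  have hm : MonotoneOn (prim n) (Set.Icc (0 : ℝ) 1) :=
    monotoneOn_of_hasDerivWithinAt_nonneg (convex_Icc 0 1)
      (fun z hz => (hd z hz).continuousWithinAt)
      (fun z hz => (hasDerivAt_prim n z).hasDerivWithinAt) fun z hz => by
        rw [interior_Icc] at hz
        exact wgt_nonneg n hz.1.le hz.2.le
  exact hm ⟨h0, hxy.trans h1⟩ ⟨h0.trans hxy, h1⟩ hxy

theorem area_nonneg (n : ℕ) {x : ℝ} (h0 : 0 ≤ x) (h1 : x ≤ 1) : 0 ≤ area n x :=
  sub_nonneg.2 (prim_mono n h0 h1 le_rfl)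

theorem area_anti (n : ℕ) {x y : ℝ} (h0 : 0 ≤ x) (hxy : x ≤ y) (h1 : y ≤ 1) :
    area n y ≤ area n x :=
  sub_le_sub_left (prim_mono n h0 hxy h1) _

section compare

variable {n a b : ℕ} {c L : ℝ} (hL : 0 < L) (hab : a ≤ b) (ha : c ≤ 2 * (a : ℝ))
  (hb : 2 * (b : ℝ) - c ≤ L)

include hL ha hb

theorem antitone_step :
    AntitoneOn (fun t => wgt n ((2 * t - c) / L)) (Set.Icc (a : ℝ) b) := by
  intro s hs t ht hst
  have hs0 : 0 ≤ (2 * s - c) / L := div_nonneg (by linarith [hs.1]) hL.le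
  have hst' : (2 * s - c) / L ≤ (2 * t - c) / L := by gcongr
  have ht1 : (2 * t - c) / L ≤ 1 := (div_le_one hL).2 (by linarith [ht.2])
  exact pow_le_pow_left₀ (by nlinarith) (by nlinarith) n

omit hL ha hb in
theorem integral_step (hL : 0 < L) :
    ∫ t in (a : ℝ)..b, wgt n ((2 * t - c) / L) =
      L / 2 * (prim n ((2 * (b : ℝ) - c) / L) - prim n ((2 * (a : ℝ) - c) / L)) := by
  rw [mul_sub]
  refine intervalIntegral.integral_eq_sub_of_hasDerivAt
    (f := fun t => L / 2 * prim n ((2 * t - c) / L)) (fun t _ => ?_) ?_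
  · have h1 : HasDerivAt (fun t : ℝ => (2 * t - c) / L) (2 * 1 / L) t :=
      (((hasDerivAt_id t).const_mul 2).sub_const c).div_const L
    refine (((hasDerivAt_prim n _).comp t h1).const_mul (L / 2)).congr_deriv ?_
    field_simp
  · exact (by unfold wgt; fun_prop : Continuous fun t => wgt n ((2 * t - c) / L)).intervalIntegrable _ _

include hab

theorem sum_ge : L / 2 * (prim n ((2 * (b : ℝ) - c) / L) - prim n ((2 * (a : ℝ) - c) / L)) ≤
    ∑ i ∈ Icc a b, wgt n ((2 * (i : ℝ) - c) / L) := by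
  rw [← integral_step hL]
  refine ((antitone_step hL ha hb).integral_le_sum_Ico hab).trans ?_
  refine Finset.sum_le_sum_of_subset_of_nonneg Ico_subset_Icc_self fun i hi _ => ?_
  have hi' := Finset.mem_Icc.1 hi
  have h1 : (a : ℝ) ≤ i := by exact_mod_cast hi'.1
  have h2 : (i : ℝ) ≤ b := by exact_mod_cast hi'.2
  exact wgt_nonneg n (div_nonneg (by linarith) hL.le) ((div_le_one hL).2 (by linarith))

theorem sum_le : ∑ i ∈ Icc a b, wgt n ((2 * (i : ℝ) - c) / L) ≤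
    1 + L / 2 * (prim n ((2 * (b : ℝ) - c) / L) - prim n ((2 * (a : ℝ) - c) / L)) := by
  rw [← integral_step hL, ← Finset.Ico_add_one_right_eq_Icc,
    Finset.sum_eq_sum_Ico_succ_bot (by omega),
    ← Finset.sum_Ico_add' (fun i : ℕ => wgt n ((2 * (i : ℝ) - c) / L)) a b 1]
  refine add_le_add ?_ ((antitone_step hL ha hb).sum_le_integral_Ico hab)
  have h2 : (a : ℝ) ≤ b := by exact_mod_cast hab
  exact wgt_le_one n (div_nonneg (by linarith) hL.le) ((div_le_one hL).2 (by linarith))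

end compare

/-- `c a = (a + 13).choose 13`. -/
def cf (a : ℕ) : ℝ := ((a + 13).choose 13 : ℝ)

theorem cf_nonneg (a : ℕ) : 0 ≤ cf a := Nat.cast_nonneg _

theorem pow_le_cf (a : ℕ) : (a : ℝ) ^ 13 ≤ (Nat.factorial 13 : ℝ) * cf a := by
  have h := Nat.pow_succ_le_ascFactorial (a + 1) 13
  rw [Nat.ascFactorial_eq_factorial_mul_choose] at h
  have h2 : a ^ 13 ≤ Nat.factorial 13 * (a + 13).choose 13 :=
    (Nat.pow_le_pow_left (Nat.le_succ a) 13).trans h
  unfold cf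
  exact_mod_cast h2

theorem cf_le_pow (a : ℕ) : (Nat.factorial 13 : ℝ) * cf a ≤ ((a : ℝ) + 13) ^ 13 := by
  have h := Nat.ascFactorial_le_pow_add a 13
  rw [Nat.ascFactorial_eq_factorial_mul_choose] at h
  unfold cf
  exact_mod_cast h

theorem biDim_eq (a b : ℕ) : 14 * (biDim p₀ a b : ℝ) = ((a : ℝ) + b + 14) * cf a * cf b := by
  have h1 : (a + 14).choose 14 * 14 = (a + 14) * (a + 13).choose 13 :=
    (Nat.add_one_mul_choose_eq (a + 13) 13).symm
  have h2 : (b + 13).choose 14 * 14 = (b + 13).choose 13 * b := by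
    have := Nat.choose_succ_right_eq (b + 13) 13
    rwa [Nat.add_sub_cancel] at this
  have h : 14 * biDim p₀ a b = (a + b + 14) * (a + 13).choose 13 * (b + 13).choose 13 := by
    show 14 * ((a + 14).choose 14 * (b + 13).choose 13 +
      (a + 13).choose 13 * (b + 13).choose 14) = _
    calc 14 * ((a + 14).choose 14 * (b + 13).choose 13 + (a + 13).choose 13 * (b + 13).choose 14)
        = (a + 14).choose 14 * 14 * (b + 13).choose 13 +
          (a + 13).choose 13 * ((b + 13).choose 14 * 14) := by ring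
      _ = _ := by rw [h1, h2]; ring
  unfold cf
  exact_mod_cast h

/-- The bidegrees with `|a - b| ≥ Z`. -/
def pre (l Z : ℕ) : Finset ℕ := (range (l + 1)).filter fun a => Z ≤ Nat.dist (2 * a) l

theorem sum_pre {l Z : ℕ} (hZ : 1 ≤ Z) (f : ℕ → ℝ) (hf : ∀ a ≤ l, f (l - a) = f a) :
    ∑ a ∈ pre l Z, f a = 2 * ∑ a ∈ Icc ((l + Z + 1) / 2) l, f a := by
  have hpre : pre l Z = Icc ((l + Z + 1) / 2) l ∪ (range (l + 1)).filter (fun a => 2 * a + Z ≤ l) := by
    ext a
    simp only [pre, mem_filter, mem_range, mem_union, mem_Icc]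
    unfold Nat.dist
    omega
  have hdisj : Disjoint (Icc ((l + Z + 1) / 2) l) ((range (l + 1)).filter fun a => 2 * a + Z ≤ l) := by
    rw [Finset.disjoint_left]
    intro a h1 h2
    simp only [mem_filter, mem_range, mem_Icc] at h1 h2
    omega
  have hflip : ∑ a ∈ (range (l + 1)).filter (fun a => 2 * a + Z ≤ l), f a =
      ∑ a ∈ Icc ((l + Z + 1) / 2) l, f a := by
    refine Finset.sum_nbij' (fun a => l - a) (fun a => l - a) ?_ ?_ ?_ ?_ ?_
    · intro a ha
      simp only [mem_filter, mem_range, mem_Icc] at ha ⊢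
      omega
    · intro a ha
      simp only [mem_filter, mem_range, mem_Icc] at ha ⊢
      omega
    · intro a ha
      simp only [mem_filter, mem_range] at ha
      omega
    · intro a ha
      simp only [mem_Icc] at ha
      omega
    · intro a ha
      exact (hf a (by simp only [mem_filter, mem_range] at ha; omega)).symm
  rw [hpre, sum_union hdisj, hflip, two_mul]

section level

variable {l Z : ℕ} {zlo zhi : ℝ}

/-- The normalisation of the weights of the level `l`. -/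
def scale (l : ℕ) : ℝ := ((l : ℝ) / 2) ^ 26 / (Nat.factorial 13 : ℝ) ^ 2

variable (hl : 0 < l) (hZ : 1 ≤ Z) (hZl : Z ≤ l)

include hl hZ hZl

theorem upper_start : ((Z : ℝ) ≤ 2 * (((l + Z + 1) / 2 : ℕ) : ℝ) - l) ∧
    (2 * (((l + Z + 1) / 2 : ℕ) : ℝ) - l ≤ Z + 1) ∧ (l + Z + 1) / 2 ≤ l := by
  set a := (l + Z + 1) / 2
  have h1 : l + Z ≤ 2 * a := by omega
  have h2 : 2 * a ≤ l + Z + 1 := by omega
  have h1' : (l : ℝ) + Z ≤ 2 * a := by exact_mod_cast h1
  have h2' : 2 * (a : ℝ) ≤ l + Z + 1 := by exact_mod_cast h2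
  exact ⟨by linarith, by linarith, by omega⟩

omit hl hZ hZl in
theorem scale_mul_wgt (n : ℕ) (a : ℕ) {L : ℝ} (hL : L ≠ 0) (c : ℝ) :
    (L / 2) ^ (2 * n) * wgt n ((2 * (a : ℝ) - c) / L) =
      ((L / 2) ^ 2 - ((a : ℝ) - c / 2) ^ 2) ^ n := by
  rw [pow_mul, wgt, ← mul_pow]
  congr 1
  field_simp

omit hl hZ hZl in
theorem cc_ge {a : ℕ} (hl : 0 < l) (ha : a ≤ l) :
    scale l * wgt 13 ((2 * (a : ℝ) - l) / l) ≤ cf a * cf (l - a) := by
  have hl' : (l : ℝ) ≠ 0 := by positivity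
  rw [scale, div_mul_eq_mul_div, scale_mul_wgt 13 a hl' l, div_le_iff₀ (by positivity)]
  have h : ((l : ℝ) / 2) ^ 2 - ((a : ℝ) - l / 2) ^ 2 = (a : ℝ) * ((l - a : ℕ) : ℝ) := by
    rw [Nat.cast_sub ha]; ring
  rw [h, mul_pow]
  calc _ ≤ ((Nat.factorial 13 : ℝ) * cf a) * ((Nat.factorial 13 : ℝ) * cf (l - a)) :=
        mul_le_mul (pow_le_cf a) (pow_le_cf _) (by positivity)
          (mul_nonneg (by positivity) (cf_nonneg a))
    _ = _ := by ring

omit hl hZ hZl in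
theorem cc_le {a : ℕ} (hl : 0 < l) (ha : a ≤ l) :
    cf a * cf (l - a) ≤
      scale l * (1 + 26 / (l : ℝ)) ^ 26 * wgt 13 ((2 * (a : ℝ) - l) / ((l : ℝ) + 26)) := by
  have hl' : (0 : ℝ) < l := by exact_mod_cast hl
  have e : scale l * (1 + 26 / (l : ℝ)) ^ 26 = (((l : ℝ) + 26) / 2) ^ 26 / (Nat.factorial 13 : ℝ) ^ 2 := by
    rw [scale, div_mul_eq_mul_div, ← mul_pow]
    congr 2
    field_simp
  rw [e, div_mul_eq_mul_div, scale_mul_wgt 13 a (by positivity : (l : ℝ) + 26 ≠ 0) l,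
    le_div_iff₀ (by positivity)]
  have h : (((l : ℝ) + 26) / 2) ^ 2 - ((a : ℝ) - l / 2) ^ 2 =
      ((a : ℝ) + 13) * (((l - a : ℕ) : ℝ) + 13) := by
    rw [Nat.cast_sub ha]; ring
  rw [h, mul_pow]
  calc cf a * cf (l - a) * (Nat.factorial 13 : ℝ) ^ 2
      = ((Nat.factorial 13 : ℝ) * cf a) * ((Nat.factorial 13 : ℝ) * cf (l - a)) := by ring
    _ ≤ _ := mul_le_mul (cf_le_pow a) (cf_le_pow _) (mul_nonneg (by positivity) (cf_nonneg _))
        (by positivity)

/-- Lower bound for the total weight. -/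
theorem mass_ge (hhi : (Z : ℝ) + 1 ≤ zhi * l) (hhi1 : zhi ≤ 1) :
    scale l * ((l : ℝ) / 2 * area 13 zhi) ≤
      ∑ a ∈ Icc ((l + Z + 1) / 2) l, cf a * cf (l - a) := by
  obtain ⟨s1, s2, s3⟩ := upper_start hl hZ hZl
  have hl' : (0 : ℝ) < l := by exact_mod_cast hl
  have hZ' : (1 : ℝ) ≤ Z := by exact_mod_cast hZ
  refine le_trans ?_ ((Finset.mul_sum ..).trans_le (Finset.sum_le_sum fun a ha =>
    cc_ge hl (Finset.mem_Icc.1 ha).2))
  refine mul_le_mul_of_nonneg_left ?_ (by unfold scale; positivity)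
  refine le_trans ?_ (sum_ge hl' s3 (by linarith) (by linarith))
  refine mul_le_mul_of_nonneg_left ?_ (by positivity)
  rw [show (2 * (l : ℝ) - l) / l = 1 by field_simp; ring]
  exact area_anti 13 (div_nonneg (by linarith) hl'.le) ((div_le_iff₀ hl').2 (by linarith)) hhi1

/-- Upper bound for the total weight. -/
theorem mass_le (hlo : zlo * ((l : ℝ) + 26) ≤ Z) (hlo0 : 0 ≤ zlo) :
    ∑ a ∈ Icc ((l + Z + 1) / 2) l, cf a * cf (l - a) ≤
      scale l * (1 + 26 / (l : ℝ)) ^ 26 * (1 + ((l : ℝ) + 26) / 2 * area 13 zlo) := by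
  obtain ⟨s1, s2, s3⟩ := upper_start hl hZ hZl
  have hl' : (0 : ℝ) < (l : ℝ) + 26 := by positivity
  have hZ' : (1 : ℝ) ≤ Z := by exact_mod_cast hZ
  have hZl' : (Z : ℝ) ≤ l := by exact_mod_cast hZl
  refine (Finset.sum_le_sum fun a ha => cc_le hl (Finset.mem_Icc.1 ha).2).trans
    ((Finset.mul_sum ..).ge.trans ?_)
  refine mul_le_mul_of_nonneg_left ?_ (by unfold scale; positivity)
  refine (sum_le hl' s3 (by linarith) (by linarith)).trans ?_
  refine add_le_add le_rfl (mul_le_mul_of_nonneg_left ?_ (by positivity))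
  have h1 : (2 * (l : ℝ) - l) / ((l : ℝ) + 26) ≤ 1 := (div_le_one hl').2 (by linarith)
  refine sub_le_sub (prim_mono 13 (div_nonneg (by linarith) hl'.le) h1 le_rfl)
    (prim_mono 13 hlo0 ((le_div_iff₀ hl').2 (by linarith)) ((div_le_one hl').2 ?_))
  have : (((l + Z + 1) / 2 : ℕ) : ℝ) ≤ l := by exact_mod_cast s3
  linarith

/-- Lower bound for the second moment. -/
theorem moment_ge (hhi : (Z : ℝ) + 1 ≤ zhi * l) (hhi1 : zhi ≤ 1) (hlo : zlo * ((l : ℝ) + 26) ≤ Z)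
    (hlo0 : 0 ≤ zlo) :
    (l : ℝ) ^ 2 * scale l * ((l : ℝ) / 2 * area 13 zhi - (1 + (l : ℝ) / 2 * area 14 zlo)) ≤
      ∑ a ∈ Icc ((l + Z + 1) / 2) l, cf a * cf (l - a) * (Nat.dist (2 * a) l : ℝ) ^ 2 := by
  obtain ⟨s1, s2, s3⟩ := upper_start hl hZ hZl
  have hl' : (0 : ℝ) < l := by exact_mod_cast hl
  have hZ' : (1 : ℝ) ≤ Z := by exact_mod_cast hZ
  have hterm : ∀ a ∈ Icc ((l + Z + 1) / 2) l, (l : ℝ) ^ 2 * scale l *
      (wgt 13 ((2 * (a : ℝ) - l) / l) - wgt 14 ((2 * (a : ℝ) - l) / l)) ≤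
      cf a * cf (l - a) * (Nat.dist (2 * a) l : ℝ) ^ 2 := by
    intro a ha
    have ha' := Finset.mem_Icc.1 ha
    have hd : (Nat.dist (2 * a) l : ℝ) = 2 * a - l := by
      rw [Nat.dist_eq_sub_of_le_right (by omega), Nat.cast_sub (by omega)]
      push_cast
      ring
    refine le_trans (le_of_eq ?_) (mul_le_mul_of_nonneg_right (cc_ge hl ha'.2) (sq_nonneg _))
    rw [hd, wgt, wgt, pow_succ _ 13]
    field_simp
    ring
  refine le_trans ?_ ((Finset.mul_sum ..).trans_le (Finset.sum_le_sum hterm))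
  refine mul_le_mul_of_nonneg_left ?_ (by unfold scale; positivity)
  rw [Finset.sum_sub_distrib]
  refine sub_le_sub (le_trans ?_ (sum_ge hl' s3 (by linarith) (by linarith)))
    ((sum_le hl' s3 (by linarith) (by linarith)).trans (add_le_add le_rfl ?_))
  · refine mul_le_mul_of_nonneg_left ?_ (by positivity)
    rw [show (2 * (l : ℝ) - l) / l = 1 by field_simp; ring]
    exact area_anti 13 (div_nonneg (by linarith) hl'.le) ((div_le_iff₀ hl').2 (by linarith)) hhi1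
  · refine mul_le_mul_of_nonneg_left ?_ (by positivity)
    rw [show (2 * (l : ℝ) - l) / l = 1 by field_simp; ring]
    refine area_anti 14 hlo0 ((le_div_iff₀ hl').2 ?_) ((div_le_one hl').2 ?_)
    · nlinarith
    · have : (((l + Z + 1) / 2 : ℕ) : ℝ) ≤ l := by exact_mod_cast s3
      linarith

end level

end

end Vale.Agent.P225.Count
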